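import Crest.Agent.X212.Dec35.Hyp
import Crest.Agent.X212.Dgr80.Win

/-!
# Row 212, DEC-ERR (helper63): the functions of time of the cut family
-/

set_option autoImplicit false
noncomputable section
open scoped Topology ContDiff
open MeasureTheory Set Function Filter Real

namespace Crest.Agent.X212.Err63
open Dec35 Neck67

variable {th : ℝ → ℝ} {L p q c s t η : ℝ} {k : ℕ}

theorem chi_eq (p q : ℝ) : chi p q = up p 1 * dn q 1 := rfl

theorem ret_eq (L p q : ℝ) : ret L p q = up (p - L) L * dn (q + L) L := rfl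

theorem sm_chi (p q : ℝ) : Sm (chi p q) := (sm_up le_rfl p).mul (sm_dn le_rfl q)

theorem bd_chi (k : ℕ) (p q : ℝ) : Bd k (chi p q) (2 ^ k * cS k * cS k) :=
  Bd.mul (sm_up le_rfl p).cd (sm_dn le_rfl q).cd (bd_up k le_rfl p).of_succ
    (bd_dn k le_rfl q).of_succ

theorem chi_one (h : t ∈ Icc (p + 1) (q - 1)) : chi p q t = 1 := by
  rw [chi, up_one one_pos h.1, dn_one one_pos h.2, one_mul]

theorem chi_left (h : t ≤ p) : chi p q t = 0 := by rw [chi, up_zero one_pos h, zero_mul]

theorem chi_right (h : q ≤ t) : chi p q t = 0 := by rw [chi, dn_zero one_pos h, mul_zero]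

theorem ret_one (hL : 0 < L) (h : t ∈ Icc p q) : ret L p q t = 1 := by
  rw [ret, up_one hL (by linarith [h.1]), dn_one hL (by linarith [h.2]), one_mul]

theorem ret_left (hL : 0 < L) (h : t ≤ p - L) : ret L p q t = 0 := by
  rw [ret, up_zero hL h, zero_mul]

theorem ret_right (hL : 0 < L) (h : q + L ≤ t) : ret L p q t = 0 := by
  rw [ret, dn_zero hL h, mul_zero]

section vth
variable (h : ContDiff ℝ ∞ th)
include h

theorem cont_ig (p q : ℝ) : Continuous fun s => chi p q s * deriv th s :=
  (sm_chi p q).cd.continuous.mul (cd_deriv h).continuous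

theorem hasDerivAt_vth (t : ℝ) : HasDerivAt (vth th p q) (chi p q t * deriv th t) t :=
  (cont_ig h p q).deriv_integral _ p t ▸
    ((intervalIntegral.differentiable_integral_of_continuous (cont_ig h p q)) t).hasDerivAt

theorem deriv_vth : deriv (vth th p q) = chi p q * deriv th :=
  funext fun t => (hasDerivAt_vth h t).deriv

theorem cd_vth : ContDiff ℝ ∞ (vth th p q) :=
  contDiff_infty_iff_deriv.2 ⟨fun t => (hasDerivAt_vth h t).differentiableAt,
    deriv_vth h ▸ (sm_chi p q).cd.mul (cd_deriv h)⟩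

theorem vth_sub (s t : ℝ) :
    vth th p q s - vth th p q t = ∫ x in t..s, chi p q x * deriv th x :=
  intervalIntegral.integral_interval_sub_left ((cont_ig h p q).intervalIntegrable _ _)
    ((cont_ig h p q).intervalIntegrable _ _)

omit h in
theorem vth_left (ht : t ≤ p) : vth th p q t = 0 := by
  rw [vth, intervalIntegral.integral_congr (g := fun _ => 0), intervalIntegral.integral_zero]
  intro x hx
  rw [uIcc_of_ge ht] at hx
  simp only [chi_left hx.2, zero_mul]

theorem vth_right (ht : q ≤ t) : vth th p q t = vth th p q q := by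
  rw [← sub_eq_zero, vth_sub h, intervalIntegral.integral_congr (g := fun _ => 0),
    intervalIntegral.integral_zero]
  intro x hx
  rw [uIcc_of_le ht] at hx
  simp only [chi_right hx.1, zero_mul]

theorem vth_mid (hs : s ∈ Icc (p + 1) (q - 1)) (ht : t ∈ Icc (p + 1) (q - 1)) :
    vth th p q s - vth th p q t = th s - th t := by
  rw [vth_sub h, intervalIntegral.integral_congr (g := deriv th),
    intervalIntegral.integral_deriv_eq_sub (fun x _ => cd_diff h x)
      ((cd_deriv h).continuous.intervalIntegrable _ _)]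
  intro x hx
  simp only [chi_one (uIcc_subset_Icc ht hs hx), one_mul]

theorem Th_mid (hL : 0 < L) (hs : s ∈ Icc (p + 1) (q - 1)) (ht : t ∈ Icc (p + 1) (q - 1)) :
    Th th L p q c s = th s + (Th th L p q c t - th t) := by
  have := vth_mid h hs ht
  rw [Th, Th, ret_one hL ⟨by linarith [hs.1], by linarith [hs.2]⟩,
    ret_one hL ⟨by linarith [ht.1], by linarith [ht.2]⟩]
  linarith

theorem cd_Th (hL : 1 ≤ L) : ContDiff ℝ ∞ (Th th L p q c) :=
  ((sm_up hL _).mul (sm_dn hL _)).cd.mul (contDiff_const.add (cd_vth h))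

theorem deriv_Th (hL : 1 ≤ L) : deriv (Th th L p q c) =
    c • (deriv (up (p - L) L) * dn (q + L) L) +
      (c + vth th p q q) • (up (p - L) L * deriv (dn (q + L) L)) + chi p q * deriv th := by
  have h0 : 0 < L := by linarith
  funext t
  have d := ((((sm_up hL (p - L)).diff t).hasDerivAt.mul
    ((sm_dn hL (q + L)).diff t).hasDerivAt).mul ((hasDerivAt_vth (p := p) (q := q) h t).const_add c))
  have e1 : deriv (up (p - L) L) t * vth th p q t = 0 := by
    rcases le_or_gt t p with ht | ht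
    · rw [vth_left ht, mul_zero]
    · rw [deriv_zero_off isClosed_Iic (fun u hu => up_one h0 (by
        linarith [not_le.1 (show ¬u ≤ p from hu)])) t (not_le.2 ht), zero_mul]
  have e2 : deriv (dn (q + L) L) t * vth th p q t = deriv (dn (q + L) L) t * vth th p q q := by
    rcases le_or_gt q t with ht | ht
    · rw [vth_right h ht]
    · rw [deriv_zero_off isClosed_Ici (fun u hu => dn_one h0 (by
        linarith [not_le.1 (show ¬q ≤ u from hu)])) t (not_le.2 ht), zero_mul, zero_mul]
  have e3 : up (p - L) L t * dn (q + L) L t * chi p q t = chi p q t := by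
    rcases le_or_gt t p with ht | ht
    · rw [chi_left ht, mul_zero]
    · rcases le_or_gt q t with ht' | ht'
      · rw [chi_right ht', mul_zero]
      · exact (congrArg (· * _) (ret_one h0 ⟨ht.le, ht'.le⟩)).trans (one_mul _)
  refine d.deriv.trans ?_
  simp only [Pi.add_apply, Pi.mul_apply, Pi.smul_apply, smul_eq_mul]
  linear_combination dn (q + L) L t * e1 + up (p - L) L t * e2 + deriv th t * e3

theorem sm_dTh (hL : 1 ≤ L) (h' : Sm (deriv th)) : Sm (deriv (Th th L p q c)) := by
  rw [deriv_Th h hL]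
  exact ((((sm_up hL _).deriv.mul (sm_dn hL _)).smul _).add
    (((sm_up hL _).mul (sm_dn hL _).deriv).smul _)).add ((sm_chi p q).mul h')

end vth

/-- the constant of the cut family -/
def cA (k : ℕ) : ℝ := 2 ^ k * (2 ^ k * cS k * cS k)

theorem one_le_cA (k : ℕ) : 1 ≤ cA k := by
  have h := one_le_cS k
  have h2 : (1 : ℝ) ≤ 2 ^ k := one_le_pow₀ one_le_two
  exact one_le_mul_of_one_le_of_one_le h2 (one_le_mul_of_one_le_of_one_le
    (one_le_mul_of_one_le_of_one_le h2 h) h)

theorem bd_dTh (h : ContDiff ℝ ∞ th) (hL : 1 ≤ L) (hb : Bd k (deriv th) η) :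
    Bd k (deriv (Th th L p q c)) (cA k * (η + (|c| + |c + vth th p q q|) / L)) := by
  rw [deriv_Th h hL]
  have u := sm_up hL (p - L)
  have d := sm_dn hL (q + L)
  have b1 := (Bd.mul u.deriv.cd d.cd (bd_deriv_up k hL (p - L)) (bd_dn k hL (q + L)).of_succ).smul c
  have b2 := (Bd.mul u.cd d.deriv.cd (bd_up k hL (p - L)).of_succ (bd_deriv_dn k hL (q + L))).smul
    (c + vth th p q q)
  have b3 := Bd.mul (sm_chi p q).cd (cd_deriv h) (bd_chi k p q) hb
  refine (Bd.add (((u.deriv.mul d).smul _).add ((u.mul d.deriv).smul _)).cd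
    ((sm_chi p q).cd.mul (cd_deriv h)) (Bd.add ((u.deriv.mul d).smul _).cd
      ((u.mul d.deriv).smul _).cd b1 b2) b3).mono ?_
  have h2 : (1 : ℝ) ≤ 2 ^ k := one_le_pow₀ one_le_two
  have h3 := one_le_cS k
  have h4 : 0 ≤ 2 ^ k * cS k * cS k * ((|c| + |c + vth th p q q|) / L) := by positivity
  have := mul_le_mul_of_nonneg_right h2 h4
  rw [cA, div_eq_mul_inv] at *
  nlinarith

/-! ### the weight -/

/-- the depth which controls the error -/
def sg (L p q t : ℝ) : ℝ := max (min (t - p) (q - t)) (max 0 (-L - min (t - p) (q - t)))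

/-- four windows -/
def V4 (δ L p q t : ℝ) : ℝ :=
  Dgr80.b δ (t - p) + Dgr80.b δ (t - q) + Dgr80.b δ (t - (p - L)) + Dgr80.b δ (t - (q + L))

theorem integrable_V4 {δ : ℝ} (hδ : 0 < δ) (L p q : ℝ) : Integrable (V4 δ L p q) :=
  have h := (Dgr80.integrable_b hδ).comp_sub_right
  (((h _).add (h _)).add (h _)).add (h _)

theorem integral_V4 {δ : ℝ} (hδ : 0 < δ) (L p q : ℝ) : ∫ t, V4 δ L p q t = 4 := by
  have h := (Dgr80.integrable_b hδ).comp_sub_right
  unfold V4
  rw [integral_add (((h _).fun_add (h _)).fun_add (h _)) (h _),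
    integral_add ((h _).fun_add (h _)) (h _), integral_add (h _) (h _)]
  simp only [integral_sub_right_eq_self (Dgr80.b δ), Dgr80.integral_b hδ]
  norm_num

theorem wt_le {δ g A ψ : ℝ} (hδ : 0 < δ) (hg : 2 * δ ≤ g) (hL : 0 ≤ L)
    (h : ψ ≤ δ * max 0 (L + min (t - p) (q - t)) + A) :
    exp (ψ - g * sg L p q t) ^ 2 ≤ exp (A + δ * L) ^ 2 * (2 / δ) * V4 (2 * δ) L p q t := by
  have hδ2 : 0 < 2 * δ := by positivity
  have key : ∀ a, ψ - g * sg L p q t ≤ A + δ * L - δ * |t - a| →
      exp (ψ - g * sg L p q t) ^ 2 ≤ exp (A + δ * L) ^ 2 * (2 / δ) * Dgr80.b (2 * δ) (t - a) := by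
    intro a ha
    have h1 := Dgr80.b_ge hδ2 (t - a)
    calc _ ≤ exp (A + δ * L - δ * |t - a|) ^ 2 := by gcongr
      _ = exp (A + δ * L) ^ 2 * (2 / δ) * (2 * δ / 4 * exp (-(2 * δ * |t - a|))) := by
          rw [sub_eq_add_neg, exp_add, mul_pow, ← exp_nat_mul (-(δ * |t - a|))]
          field_simp
          norm_num
          ring_nf
      _ ≤ _ := by gcongr
  have b := fun a => (Dgr80.b_pos hδ2 (t - a)).le
  have fin : ∀ a, Dgr80.b (2 * δ) (t - a) ≤ V4 (2 * δ) L p q t →
      ψ - g * sg L p q t ≤ A + δ * L - δ * |t - a| →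
      exp (ψ - g * sg L p q t) ^ 2 ≤ exp (A + δ * L) ^ 2 * (2 / δ) * V4 (2 * δ) L p q t :=
    fun a h1 h2 => (key a h2).trans (by gcongr)
  set r := min (t - p) (q - t) with hr
  have s1 : r ≤ sg L p q t := le_max_left _ _
  have s2 : 0 ≤ sg L p q t := (le_max_left _ _).trans (le_max_right _ _)
  have s3 : -L - r ≤ sg L p q t := (le_max_right _ _).trans (le_max_right _ _)
  rcases le_total 0 (L + r) with h1 | h1
  · rw [max_eq_right h1] at h
    have e : ψ - g * sg L p q t ≤ A + δ * L - δ * |r| := by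
      rcases abs_cases r with ⟨e, _⟩ | ⟨e, _⟩ <;> rw [e] <;> nlinarith
    rcases min_choice (t - p) (q - t) with e' | e'
    · exact fin p (by unfold V4; linarith [b q, b (p - L), b (q + L)]) (by rwa [← e'])
    · exact fin q (by unfold V4; linarith [b p, b (p - L), b (q + L)])
        (by rwa [abs_sub_comm, ← e'])
  · rw [max_eq_left h1] at h
    have e : ψ - g * sg L p q t ≤ A + δ * L - δ * |L + r| := by
      rw [abs_of_nonpos h1]; nlinarith
    rcases min_choice (t - p) (q - t) with e' | e'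
    · exact fin (p - L) (by unfold V4; linarith [b q, b p, b (q + L)])
        (by rwa [show t - (p - L) = L + r by rw [hr, e']; ring])
    · exact fin (q + L) (by unfold V4; linarith [b p, b (p - L), b q])
        (by rwa [abs_sub_comm, show q + L - t = L + r by rw [hr, e']; ring])

theorem lin_le_exp {g ρ x : ℝ} (hg : 0 < g) (h0 : 0 ≤ x) (h : ρ ≤ x) :
    1 + x ≤ (1 + 2 / g) * (exp (-(g / 2 * ρ)) * exp (g * x)) := by
  have h1 : exp (g / 2 * x) ≤ exp (-(g / 2 * ρ)) * exp (g * x) := by
    rw [← exp_add]; exact exp_le_exp.2 (by nlinarith)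
  have h2 := add_one_le_exp (g / 2 * x)
  have h3 : 1 + x ≤ (1 + 2 / g) * (g / 2 * x + 1) := by
    have : (1 + 2 / g) * (g / 2 * x + 1) = 1 + x + (g / 2 * x + 2 / g) := by field_simp; ring
    rw [this]; exact le_add_of_nonneg_right (by positivity)
  exact h3.trans (mul_le_mul_of_nonneg_left (h2.trans h1) (by positivity))

end Crest.Agent.X212.Err63
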