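import Crest.Agent.X212.Err63.Gen
import Crest.Agent.X212.Err63.Tm
import Crest.Agent.X212.Cht98.Cov

/-!
# Row 212, DEC-ERR (helper63): the cut configuration is an approximate solution
-/

set_option autoImplicit false
set_option linter.unusedSectionVars false
noncomputable section
open scoped Manifold ContDiff Topology InnerProductSpace
open MeasureTheory Set Function Filter Real

namespace Crest.Agent.X212.Err63
open An Map77 Sob92 Nd18 Cyf70 Dec35 Rsp69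
open Wz78 (SA)

variable {E3 : Type} [NormedAddCommGroup E3] [NormedSpace ℝ E3] [FiniteDimensional ℝ E3]
  [MeasurableSpace E3] [BorelSpace E3]
  {H3 : Type} [TopologicalSpace H3] {I3 : ModelWithCorners ℝ E3 H3} [I3.Boundaryless]
  {Y : Type} [TopologicalSpace Y] [ChartedSpace H3 Y] [IsManifold I3 ∞ Y] [T2Space Y]
  [MeasurableSpace Y] [BorelSpace Y] [SecondCountableTopology Y] [CompactSpace Y]
  {κ : Type} [Fintype κ] {lam : Type} [Fintype lam]
  {N : Type} [NormedAddCommGroup N] [NormedSpace ℝ N]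
  {D : YD I3 Y κ lam} {β : YC Y κ lam} {τ : Pt (Y × ℝ) (Option κ) lam 0 0}

/-- smooth `t`-invariant functions are bounded with all derivatives -/
theorem cb_inv {f : Y × ℝ → N} (h : Sm (IC I3) f) (e : ∀ x, f x = f (x.1, 0)) : D.Z.Cb f := by
  rw [funext e]
  exact Cht98.Cb_fst D.F.toPre (Cb_of_compact (sm_slice_fst h 0))

theorem cd_cy (hD : D.OK) (hβ : D.Adm β) : Cd D.B D.G (cy β) where
  hB := hD.B
  hG := hD.G
  adm := hβ.adm
  dat := ⟨fun a b => cb_inv (hD.B.sP a b) fun x => by cases a <;> cases b <;> rfl,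
    fun a b c d => cb_inv (hD.B.so a b c d) fun _ => rfl, cb_inv hβ.adm.ok.sp fun _ => rfl,
    fun a => cb_inv (hβ.adm.ok.sρ a) fun _ => rfl, cb_inv hβ.adm.ok.sj fun _ => rfl⟩
  cW a := cb_inv (fun x => hβ.adm.conn.cc.sm a x) fun _ => rfl
  cΦ := cb_inv hβ.adm.sm fun _ => rfl
  cc a b k := cb_inv (D.Z.c_sm a b k) fun x => by cases a <;> cases b <;> cases k <;> rfl

theorem cb_time (k : ℕ) : ∀ {h : ℝ → ℝ} {A : ℝ}, ContDiff ℝ ∞ h → Neck67.Bd k h A →
    D.Z.CB k (fun x => h x.2) A := by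
  induction k with
  | zero => exact fun _ hb => CB_zero.2 fun x => hb x.2
  | succ k ih =>
    intro h A hh hb
    refine CB_succ.2 ⟨fun x => hb.1 x.2, fun a => ?_⟩
    cases a with
    | none => exact (D_none_snd D.F.toPre hh).symm ▸ ih (Neck67.cd_deriv hh) hb.2
    | some a =>
      exact (D_some_snd D.F.toPre hh a).symm ▸
        CB_mono (CB_const k (0 : ℝ)) (by simpa using hb.nonneg)

theorem cb_D_time {k : ℕ} {h : ℝ → ℝ} {A : ℝ} (hh : ContDiff ℝ ∞ h)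
    (hb : Neck67.Bd k (deriv h) A) (a : Option κ) : D.Z.CB k (D.Z.D a fun x => h x.2) A := by
  cases a with
  | none => exact (D_none_snd D.F.toPre hh).symm ▸ cb_time k (Neck67.cd_deriv hh) hb
  | some a =>
    exact (D_some_snd D.F.toPre hh a).symm ▸ CB_mono (CB_const k (0 : ℝ)) (by simpa using hb.nonneg)

theorem ph_time {𝒟 : Type*} {S : 𝒟 → Set (Y × ℝ)} {k : ℕ} {θ : 𝒟 → ℝ → ℝ} {A : ℝ}
    (h : ∀ d, ContDiff ℝ ∞ (θ d)) (hb : ∀ d, Neck67.Bd k (deriv (θ d)) A) :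
    Ph D.Z.toPre ⊤ S k fun d x => θ d x.2 :=
  ⟨.of_forall fun d x _ => sm_snd (h d) x, fun a => Bk.of_CB (.of_forall fun d =>
    ⟨D.Z.sm_D (sm_snd (h d)) a, cb_D_time (h d) (hb d) a⟩)⟩

variable (D β) in
/-- a phase function and a variation with the bound `A` in order `k` -/
structure Ok (A : ℝ) (k : ℕ) (θ : ℝ → ℝ) (v : Cz β) : Prop where
  cd : ContDiff ℝ ∞ θ
  sm : Neck67.Sm (deriv θ)
  bd : Neck67.Bd k (deriv θ) A
  vb : Vb D β v
  cb : D.Z.CB k v A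

theorem vb_rot (hD : D.OK) (hβ : D.Adm β) {θ : ℝ → ℝ} {v : Cz β} (h : ContDiff ℝ ∞ θ)
    (h' : Neck67.Sm (deriv θ)) (hv : Vb D β v) : Vb D β (rot (cy β) (fun x => θ x.2) v) :=
  ⟨cb_of_bs fun k => bs_rot (cd_cy hD hβ).cΦ
    (ph_time (fun _ => h) fun _ => (h'.bd k).choose_spec) (Bk.of_Cb hv.cb), tg_rot hβ.adm hv.tg _⟩

theorem Ok.rot (hD : D.OK) (hβ : D.Adm β) {A : ℝ} {k : ℕ} {θ : ℝ → ℝ} {v : Cz β}
    (h : Ok D β A k θ v) : Vb D β (rot (cy β) (fun x => θ x.2) v) := vb_rot hD hβ h.cd h.sm h.vb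

theorem sz_eq (hD : D.OK) (hβ : D.Adm β) {u : Cz β} (hu : Vb D β u) :
    sz D β τ u = fun x => Lc D.B D.G (cy β) u x - te τ (cy β) u x :=
  funext ((cd_cy hD hβ).se_eq τ (Cb.sm hu.cb))

theorem sm_sz (hD : D.OK) (hβ : D.Adm β) (p1 : P1Z D β τ) {u : Cz β} (hu : Vb D β u) :
    Sm (IC I3) (sz D β τ u) :=
  sz_eq (τ := τ) hD hβ hu ▸ ((cd_cy hD hβ).sm_Lc hu.cb).sub (p1.1 u hu)

variable (D β) in
/-- two configurations which agree near the time `t` -/
structure Pr (A : ℝ) (k : ℕ) where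
  θ : ℝ → ℝ
  θ' : ℝ → ℝ
  v : Cz β
  v' : Cz β
  t : ℝ
  ρ : ℝ
  m : ℝ
  h : Ok D β A k θ v
  h' : Ok D β A k θ' v'
  e : θ t = θ' t
  bd : Neck67.Bd k (deriv θ - deriv θ') m
  cb : D.Z.CB k (fun x => v x - v' x) m
  eq : ∀ s, |s - t| < ρ → θ s = θ' s ∧ ∀ y, v (y, s) = v' (y, s)

namespace Pr
variable {A : ℝ} {k : ℕ} (P : Pr D β A k)

abbrev a : Cz β := rot (cy β) (fun x => P.θ x.2) P.v
abbrev a' : Cz β := rot (cy β) (fun x => P.θ' x.2) P.v'

theorem pb (x : Y × ℝ) :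
    PB D.Z.toPre k (fun x => P.θ x.2 - P.θ' x.2) x (P.m * (1 + |x.2 - P.t|)) := by
  have hm := P.bd.nonneg
  have hc := P.h.cd.sub P.h'.cd
  have e : deriv (fun s => P.θ s - P.θ' s) = deriv P.θ - deriv P.θ' :=
    funext fun s => deriv_sub (Neck67.cd_diff P.h.cd s) (Neck67.cd_diff P.h'.cd s)
  have h1 : ‖P.θ x.2 - P.θ' x.2‖ ≤ P.m * (1 + |x.2 - P.t|) := by
    have := convex_univ.norm_image_sub_le_of_norm_deriv_le (f := fun s => P.θ s - P.θ' s)
      (C := P.m) (fun s _ => Neck67.cd_diff hc s) (fun s _ => e ▸ P.bd.abs_le s) (mem_univ P.t)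
      (mem_univ x.2)
    rw [P.e, sub_self, sub_zero] at this
    exact this.trans (mul_le_mul_of_nonneg_left (le_add_of_nonneg_left zero_le_one) hm)
  have h2 : Neck67.Bd k (deriv fun s => P.θ s - P.θ' s) P.m := e ▸ P.bd
  have h3 : PB D.Z.toPre (k + 1) (fun x : Y × ℝ => P.θ x.2 - P.θ' x.2) x
      (P.m * (1 + |x.2 - P.t|)) :=
    PB.succ h1 fun a => (PB.of_CB (cb_D_time (D := D) hc h2 a) x).mono
      (le_mul_of_one_le_right hm (le_add_of_nonneg_right (abs_nonneg _)))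
  exact h3.of_le k.le_succ

theorem ev {x : Y × ℝ} (hx : |x.2 - P.t| < P.ρ) :
    (fun y => P.a y - P.a' y) =ᶠ[𝓝 x] fun _ => 0 := by
  filter_upwards [(isOpen_lt (f := fun y : Y × ℝ => |y.2 - P.t|) (by fun_prop)
    continuous_const).mem_nhds hx] with y hy
  have := P.eq y.2 hy
  simp only [rot, this.1, this.2 y.1, sub_self]

end Pr

section
variable (hD : D.OK) (hβ : D.Adm β) (A : ℝ) (k : ℕ)
include hD hβ

theorem bs_a : Bs D.Z.toPre ⊤ (fun _ => univ) 1 k fun P : Pr D β A k => P.a :=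
  bs_rot (cd_cy hD hβ).cΦ (ph_time (fun P => P.h.cd) fun P => P.h.bd)
    (Bk.of_CB (.of_forall fun P => ⟨Cb.sm P.h.vb.cb, P.h.cb⟩))

theorem bs_a' : Bs D.Z.toPre ⊤ (fun _ => univ) 1 k fun P : Pr D β A k => P.a' :=
  bs_rot (cd_cy hD hβ).cΦ (ph_time (fun P => P.h'.cd) fun P => P.h'.bd)
    (Bk.of_CB (.of_forall fun P => ⟨Cb.sm P.h'.vb.cb, P.h'.cb⟩))

theorem bs_sub {g : ℝ} (hg : 0 < g) : Bs D.Z.toPre ⊤ (fun _ => univ)
    (fun P x => P.m * exp (-(g / 2 * P.ρ)) * exp (g * |x.2 - P.t|)) k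
    fun (P : Pr D β A k) x => P.a x - P.a' x := by
  have nn : ∀ (P : Pr D β A k) (x : Y × ℝ), 0 ≤ P.m * (1 + |x.2 - P.t|) := fun P x =>
    mul_nonneg P.bd.nonneg (by positivity)
  obtain ⟨K, hK, h⟩ : Bs D.Z.toPre ⊤ (fun _ => univ) (fun P x => P.m * (1 + |x.2 - P.t|)) k
      fun (P : Pr D β A k) x => P.a x - P.a' x :=
    bs_rot_sub (cd_cy hD hβ).cΦ (ph_time (fun P => P.h.cd) fun P => P.h.bd)
      (ph_time (fun P => P.h'.cd) fun P => P.h'.bd)
      (Bk.of_CB (.of_forall fun P => ⟨Cb.sm P.h.vb.cb, P.h.cb⟩))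
      ⟨1, zero_le_one, .of_forall fun P x _ => ⟨nn P x, (sm_snd P.h.cd x).sub (sm_snd P.h'.cd x),
        (P.pb x).mono (one_mul _).ge⟩⟩
      ⟨1, zero_le_one, .of_forall fun P x _ => ⟨nn P x, (Cb.sm P.h.vb.cb x).sub
        (Cb.sm P.h'.vb.cb x), (PB.of_CB P.cb x).mono (by
          rw [one_mul]
          exact le_mul_of_one_le_right P.bd.nonneg (le_add_of_nonneg_right (abs_nonneg _)))⟩⟩
  refine ⟨K * (1 + 2 / g), by positivity, h.mono fun P h x hx => ?_⟩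
  have hm := P.bd.nonneg
  refine ⟨by positivity, (h x hx).2.1, ?_⟩
  rcases lt_or_ge |x.2 - P.t| P.ρ with h1 | h1
  · exact .of_ev_zero k (P.ev h1) (by positivity)
  · refine (h x hx).2.2.mono ?_
    calc K * (P.m * (1 + |x.2 - P.t|))
        ≤ K * (P.m * ((1 + 2 / g) * (exp (-(g / 2 * P.ρ)) * exp (g * |x.2 - P.t|)))) := by
          gcongr; exact lin_le_exp hg (abs_nonneg _) h1
      _ = _ := by ring

end

/-- **comparison**: the equations of two configurations which agree near `t` are close at `t` -/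
theorem lemL (hD : D.OK) (hβ : D.Adm β) (p1 : P1Z D β τ) : ∃ g > 0, ∀ k, ∃ k₁, ∀ A, ∃ K ≥ 0,
    ∀ (P : Pr D β A k₁) y, PB D.Z.toPre k (fun x => sz D β τ P.a x - sz D β τ P.a' x) (y, P.t)
      (K * (P.m * exp (-(g * P.ρ)))) := by
  obtain ⟨g, hg, h⟩ := p1.2
  refine ⟨g / 2, by positivity, fun k => ?_⟩
  obtain ⟨k', h⟩ := h k
  refine ⟨max k' (k + 1), fun A => ?_⟩
  have b1 := bs_a hD hβ A (max k' (k + 1))
  have b2 := bs_a' hD hβ A (max k' (k + 1))
  have b3 := bs_sub hD hβ A (max k' (k + 1)) hg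
  obtain ⟨K4, h4, b4⟩ := (cd_cy hD hβ).bs_Lc_sub (b1.of_le (le_max_right _ _))
    (b2.of_le (le_max_right _ _)) (b3.of_le (le_max_right _ _))
  obtain ⟨K1, h1, b1⟩ := b1.of_le (le_max_left _ _)
  obtain ⟨K2, h2, b2⟩ := b2.of_le (le_max_left _ _)
  obtain ⟨K3, h3, b3⟩ := b3.of_le (le_max_left _ _)
  simp only [eventually_top, mem_univ, forall_const, Pi.one_apply, mul_one] at b1 b2 b3 b4
  obtain ⟨K, h⟩ := h (K1 + K2)
  refine ⟨K4 + |K| * K3, by positivity, fun P y => ?_⟩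
  have hm := P.bd.nonneg
  have v1 := P.h.rot hD hβ
  have v2 := P.h'.rot hD hβ
  have h5 := h P.a P.a' v1 v2 (CB_of_PB fun x => (b1 P x).2.2.mono (by linarith))
    (CB_of_PB fun x => (b2 P x).2.2.mono (by linarith)) P.t (K3 * (P.m * exp (-(g / 2 * P.ρ))))
    (by positivity) fun s w hw y => ((b3 P (y, s)).2.2 w hw).trans (le_of_eq (by ring))
  have h6 : PB D.Z.toPre k (fun x => te τ (cy β) P.a x - te τ (cy β) P.a' x) (y, P.t)
      (|K| * (K3 * (P.m * exp (-(g / 2 * P.ρ))))) := fun w hw =>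
    (h5 w hw y).trans (mul_le_mul_of_nonneg_right (le_abs_self K) (by positivity))
  have s1 : SA (IC I3) (fun x => te τ (cy β) P.a x - te τ (cy β) P.a' x) (y, P.t) :=
    (p1.1 _ v1 _).sub (p1.1 _ v2 _)
  have h7 := PB.add k (b4 P (y, P.t)).2.1 (sa_clm _ s1) (b4 P (y, P.t)).2.2
    (PB.clm (-ContinuousLinearMap.id ℝ _) k s1 h6)
  rw [sz_eq hD hβ v1, sz_eq hD hβ v2]
  refine (h7.mono ?_).congr (.of_forall fun x => ?_)
  · have : ‖-ContinuousLinearMap.id ℝ (Ev (cy β))‖ ≤ 1 := by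
      rw [norm_neg]; exact ContinuousLinearMap.norm_id_le
    simp only [sub_self, abs_zero, mul_zero, exp_zero, mul_one]
    calc _ ≤ K4 * (P.m * exp (-(g / 2 * P.ρ))) +
          1 * (|K| * (K3 * (P.m * exp (-(g / 2 * P.ρ))))) := by gcongr
      _ = _ := by ring
  · simp only [neg_apply, ContinuousLinearMap.id_apply]; abel

variable (D β τ) in
/-- the data of the cut family -/
structure Dt (γ : ℝ) (k k₁ : ℕ) where
  η : ℝ
  L : ℝ
  p : ℝ
  q : ℝ
  c : ℝ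
  v : Cz β
  th : ℝ → ℝ
  inp : Inp D β τ γ k k₁ η v th p q
  η1 : η ≤ 1
  L1 : 1 ≤ L
  c1 : |c| ≤ 1
  c2 : |c + vth th p q q| ≤ 1

namespace Dt
variable {γ : ℝ} {k k₁ : ℕ} (d : Dt D β τ γ k k₁)

/-- the size of the error -/
def m : ℝ := d.η + (|d.c| + |d.c + vth d.th d.p d.q d.q|) / d.L

abbrev Θ : ℝ → ℝ := Th d.th d.L d.p d.q d.c
abbrev w : Cz β := fun x => chi d.p d.q x.2 • d.v x
abbrev X : Cz β := Xc d.v d.th d.L d.p d.q d.c

theorem η0 : 0 ≤ d.η := d.inp.t1.nonneg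

theorem L0 : 0 < d.L := by linarith [d.L1]

theorem η_le : d.η ≤ d.m := le_add_of_nonneg_right (by have := d.L0; positivity)

theorem m0 : 0 ≤ d.m := d.η0.trans d.η_le

theorem m3 : d.m ≤ 3 := by
  have := div_le_self (add_nonneg (abs_nonneg d.c) (abs_nonneg (d.c + vth d.th d.p d.q d.q))) d.L1
  unfold m
  linarith [d.η1, d.c1, d.c2]

theorem bdΘ : Neck67.Bd k₁ (deriv d.Θ) (cA k₁ * d.m) := bd_dTh d.inp.sm d.L1 d.inp.t1

theorem cbw : D.Z.CB k₁ d.w (cA k₁ * d.m) := CB_of_PB fun x =>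
  (PB.smul (sm_snd (sm_chi d.p d.q).cd x) (Cb.sm d.inp.vb.cb x)
    (.of_CB (cb_time k₁ (sm_chi d.p d.q).cd (bd_chi k₁ d.p d.q)) x) (.of_CB d.inp.v1 x)).mono
    (mul_le_mul_of_nonneg_left d.η_le (zero_le_one.trans (one_le_cA k₁)))

theorem vbw : Vb D β d.w := by
  choose C hC using (sm_chi d.p d.q).bd
  exact ⟨Cb_smul ⟨C, sm_snd (sm_chi d.p d.q).cd, fun k => cb_time k (sm_chi d.p d.q).cd (hC k)⟩
    d.inp.vb.cb, fun x => by rw [map_smul, d.inp.vb.tg]⟩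

theorem le3 : cA k₁ * d.m ≤ cA k₁ * 3 :=
  mul_le_mul_of_nonneg_left d.m3 (zero_le_one.trans (one_le_cA k₁))

theorem η3 : d.η ≤ cA k₁ * 3 := by linarith [d.η1, one_le_cA k₁]

theorem ηm : d.η ≤ cA k₁ * d.m := d.η_le.trans (le_mul_of_one_le_left d.m0 (one_le_cA k₁))

theorem ok : Ok D β (cA k₁ * 3) k₁ d.Θ d.w :=
  ⟨cd_Th d.inp.sm d.L1, sm_dTh d.inp.sm d.L1 d.inp.cb, d.bdΘ.mono d.le3, d.vbw, CB_mono d.cbw d.le3⟩

theorem ok_in (s : ℝ) : Ok D β (cA k₁ * 3) k₁ (fun t => d.th t + s) d.v :=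
  ⟨d.inp.sm.add contDiff_const, by rw [deriv_add_const']; exact d.inp.cb,
    by rw [deriv_add_const']; exact d.inp.t1.mono d.η3, d.inp.vb, CB_mono d.inp.v1 d.η3⟩

theorem vb0 : Vb D β 0 := ⟨Cb_const 0, fun _ => map_zero _⟩

theorem ok_out (s : ℝ) : Ok D β (cA k₁ * 3) k₁ (fun _ => 0 + s) 0 :=
  have h : 0 ≤ cA k₁ * 3 := by linarith [one_le_cA k₁]
  ⟨contDiff_const, by rw [deriv_const']; exact .const 0,
    by rw [deriv_const']; exact .const (by simpa using h), vb0,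
    CB_mono (CB_const k₁ (0 : Cv (cy β))) (by simpa using h)⟩

/-- comparison with the solution -/
def prIn {t : ℝ} (ht : t ∈ Icc (d.p + 1) (d.q - 1)) : Pr D β (cA k₁ * 3) k₁ where
  θ := d.Θ
  θ' s := d.th s + (d.Θ t - d.th t)
  v := d.w
  v' := d.v
  t := t
  ρ := min (t - d.p) (d.q - t) - 1
  m := cA k₁ * d.m + cA k₁ * d.m
  h := d.ok
  h' := d.ok_in _
  e := by ring
  bd := by
    rw [deriv_add_const']
    exact .sub (Neck67.cd_deriv d.ok.cd) d.inp.cb.cd d.bdΘ (d.inp.t1.mono d.ηm)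
  cb := by
    have h := CB_add (Cb.sm d.vbw.cb) (Cb.sm d.inp.vb.cb).neg d.cbw (CB_neg (Cb.sm d.inp.vb.cb)
      d.inp.v1)
    simp only [sub_eq_add_neg]
    exact CB_mono h (by rw [abs_of_nonneg d.η0]; linarith [d.ηm])
  eq s hs := by
    have h1 := abs_lt.1 hs
    have h2 : s ∈ Icc (d.p + 1) (d.q - 1) :=
      ⟨by linarith [min_le_left (t - d.p) (d.q - t)], by linarith [min_le_right (t - d.p) (d.q - t)]⟩
    exact ⟨Th_mid d.inp.sm d.L0 h2 ht, fun y => by simp only [w, chi_one h2, one_smul]⟩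

/-- comparison with the critical point -/
def prOut (t : ℝ) : Pr D β (cA k₁ * 3) k₁ where
  θ := d.Θ
  θ' _ := 0 + d.Θ t
  v := d.w
  v' := 0
  t := t
  ρ := max 0 (-d.L - min (t - d.p) (d.q - t))
  m := cA k₁ * d.m + cA k₁ * d.m
  h := d.ok
  h' := ok_out _
  e := by ring
  bd := by
    rw [deriv_const']
    exact .sub (Neck67.cd_deriv d.ok.cd) contDiff_const d.bdΘ
      (.const (by simpa using d.bdΘ.nonneg))
  cb := by
    simp only [Pi.zero_apply, sub_zero]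
    exact CB_mono d.cbw (by linarith [d.bdΘ.nonneg])
  eq s hs := by
    have h0 := d.L0
    have h1 := abs_lt.1 hs
    have h2 : 0 < -d.L - min (t - d.p) (d.q - t) := by
      rcases lt_max_iff.1 ((abs_nonneg _).trans_lt hs) with h | h
      exacts [absurd h (lt_irrefl _), h]
    rw [max_eq_right h2.le] at h1
    rcases min_choice (t - d.p) (d.q - t) with e | e <;> rw [e] at h1 h2
    · have a1 : s ≤ d.p - d.L := by linarith [h1.2]
      have a2 : t ≤ d.p - d.L := by linarith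
      have a3 : s ≤ d.p := by linarith
      exact ⟨by simp only [Θ, Th, ret_left h0 a1, ret_left h0 a2, zero_mul, add_zero],
        fun y => by simp only [w, chi_left a3, zero_smul, Pi.zero_apply]⟩
    · have a1 : d.q + d.L ≤ s := by linarith [h1.1]
      have a2 : d.q + d.L ≤ t := by linarith
      have a3 : d.q ≤ s := by linarith
      exact ⟨by simp only [Θ, Th, ret_right h0 a1, ret_right h0 a2, zero_mul, add_zero],
        fun y => by simp only [w, chi_right a3, zero_smul, Pi.zero_apply]⟩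

end Dt

theorem sz_phase (hD : D.OK) (hβ : D.Adm β) (nat : NatZ D τ) {A A' : ℝ} {k k' : ℕ} {θ : ℝ → ℝ}
    {v : Cz β} {s : ℝ} (h : Ok D β A k θ v) (h' : Ok D β A' k' (fun t => θ t + s) v) :
    sz D β τ (rot (cy β) (fun x => θ x.2 + s) v) =
      fun x => phE (cy β) s (sz D β τ (rot (cy β) (fun x => θ x.2) v) x) :=
  funext (se_phase hD.B hD.G hβ.adm nat h.vb.tg s (Cb.sm (h.rot hD hβ).cb)
    (Cb.sm (h'.rot hD hβ).cb))

/-- the slice bound -/
theorem slice (hD : D.OK) (hβ : D.Adm β) (h0 : sz D β τ 0 = 0) (nat : NatZ D τ) (p1 : P1Z D β τ)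
    {γ : ℝ} (hγ : 0 < γ) : ∃ g > 0, ∀ k, ∃ k₁, ∃ K ≥ 0, ∀ (d : Dt D β τ γ k k₁) x,
      PB D.Z.toPre k (sz D β τ d.X) x (K * (d.m * exp (-(g * sg d.L d.p d.q x.2)))) := by
  obtain ⟨g, hg, h⟩ := lemL hD hβ p1
  have hg' : 0 < min g γ := lt_min hg hγ
  refine ⟨min g γ, hg', fun k => ?_⟩
  obtain ⟨k₁, h⟩ := h k
  obtain ⟨K, hK, h⟩ := h (cA k₁ * 3)
  obtain ⟨K', hK', h'⟩ := ub_phE (cy β)
  have hA := zero_le_one.trans (one_le_cA k₁)
  refine ⟨k₁, K * (2 * cA k₁) * exp (min g γ) + K', by positivity, fun d ⟨y, t⟩ => ?_⟩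
  have hm := d.m0
  have key : ∀ ρ, 0 ≤ ρ → sg d.L d.p d.q t ≤ ρ + 1 →
      K * ((cA k₁ * d.m + cA k₁ * d.m) * exp (-(g * ρ))) ≤
        K * (2 * cA k₁) * exp (min g γ) * (d.m * exp (-(min g γ * sg d.L d.p d.q t))) := by
    intro ρ h1 h2
    have : exp (-(g * ρ)) ≤ exp (min g γ) * exp (-(min g γ * sg d.L d.p d.q t)) := by
      rw [← exp_add]; exact exp_le_exp.2 (by nlinarith [min_le_left g γ])
    calc _ ≤ K * ((cA k₁ * d.m + cA k₁ * d.m) *
          (exp (min g γ) * exp (-(min g γ * sg d.L d.p d.q t)))) := by gcongr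
      _ = _ := by ring
  by_cases ht : t ∈ Icc (d.p + 1) (d.q - 1)
  · have r1 : 1 ≤ min (t - d.p) (d.q - t) := le_min (by linarith [ht.1]) (by linarith [ht.2])
    have e : sg d.L d.p d.q t = min (t - d.p) (d.q - t) :=
      max_eq_left (max_le (by linarith) (by linarith [d.L0]))
    have o := d.ok_in 0
    simp only [add_zero] at o
    have s1 := sm_sz hD hβ p1 (d.ok.rot hD hβ) (y, t)
    have s2 := sm_sz hD hβ p1 ((d.prIn ht).h'.rot hD hβ) (y, t)
    have h2 : PB D.Z.toPre k (sz D β τ (d.prIn ht).a') (y, t)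
        (K' * (d.m * exp (-(min g γ * sg d.L d.p d.q t)))) := by
      rw [show sz D β τ (d.prIn ht).a' = _ from sz_phase hD hβ nat o (d.ok_in _)]
      refine (PB.clm _ k (sm_sz hD hβ p1 (o.rot hD hβ) _) fun w hw =>
        d.inp.df t ⟨by linarith [ht.1], by linarith [ht.2]⟩ w hw y).mono ?_
      have := d.η0
      rw [e]
      gcongr
      exacts [h' _, d.η_le, by nlinarith [min_le_right g γ]]
    refine ((PB.add k (s1.sub s2) s2 (h (d.prIn ht) y) h2).mono ?_).congr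
      (.of_forall fun x => sub_add_cancel _ _)
    rw [add_mul]
    exact add_le_add (key _ (by show 0 ≤ min _ _ - 1; linarith)
      (by show _ ≤ min _ _ - 1 + 1; rw [e]; linarith)) le_rfl
  · have o := Dt.ok_out (D := D) (β := β) (k₁ := k₁) 0
    simp only [add_zero] at o
    have e0 : sz D β τ (rot (cy β) (fun _ => 0) 0) = 0 := (congrArg (sz D β τ) (rot_zero _)).trans h0
    have e : ∀ x, sz D β τ (d.prOut t).a' x = 0 := fun x => by
      have := congrFun (sz_phase hD hβ nat o (Dt.ok_out (k₁ := k₁) (d.Θ t))) x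
      rw [e0] at this
      exact this.trans (map_zero _)
    have h2 : PB D.Z.toPre k (sz D β τ d.X) (y, t) _ :=
      (h (d.prOut t) y).congr (.of_forall fun x =>
        (congrArg (sz D β τ d.X x - ·) (e x)).trans (sub_zero _))
    refine h2.mono ((key _ (le_max_left _ _) ?_).trans ?_)
    · have r1 : min (t - d.p) (d.q - t) ≤ 1 := by
        by_contra k
        have := lt_min_iff.1 (not_le.1 k)
        exact ht ⟨by linarith [this.1], by linarith [this.2]⟩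
      have r2 := le_max_left 0 (-d.L - min (t - d.p) (d.q - t))
      exact max_le (by show _ ≤ max _ _ + 1; linarith) (by show _ ≤ max _ _ + 1; linarith)
    · rw [add_mul]; exact le_add_of_nonneg_right (by positivity)

/-- **DEC-ERR** -/
theorem errStmt : ErrStmt I3 Y κ lam := by
  intro D β τ hD hβ h0 nat p1 γ hγ
  obtain ⟨g, hg, h⟩ := slice hD hβ h0 nat p1 hγ
  refine ⟨g / 2, by positivity, fun δ hδ hδg k Dd A => ?_⟩
  obtain ⟨k₁, K, hK, h⟩ := h k
  obtain ⟨K', hK', h'⟩ := Ph.exp (F := D.Z.toPre) (l := ⊤) (S := fun _ => univ)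
    (θ := fun ψ : {ψ : Y × ℝ → ℝ // ∃ d, Wd D.Z.toPre ψ d Dd} => ψ.1) k
    ⟨.of_forall fun ψ x _ => ψ.2.choose_spec.sm x, fun a => Bk.of_CB (.of_forall fun ψ =>
      ⟨(ψ.2.choose_spec.der a).1, (ψ.2.choose_spec.der a).2 k⟩)⟩
  simp only [eventually_top, mem_univ, forall_const] at h'
  have := D.F.fin
  have hδ' : 2 * δ ≤ g := by linarith
  have hc := cN_nonneg (ι := Option κ) k
  have hv : 0 ≤ D.F.μ.real univ := measureReal_nonneg
  refine ⟨k₁, 2 ^ k * K' * K * exp A * √(cN (Option κ) k * (2 / δ) * (D.F.μ.real univ * 4)),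
    by positivity, fun η L p q c d v th ψ inp η1 L1 c1 c2 hw hψ => ?_⟩
  let e : Dt D β τ γ k k₁ := ⟨η, L, p, q, c, v, th, inp, η1, L1, c1, c2⟩
  have hm := e.m0
  have s1 := sm_sz hD hβ p1 (e.ok.rot hD hβ)
  have s2 : Sm (IC I3) fun x : Y × ℝ => exp (ψ x.2) := fun x => (h' ⟨_, d, hw⟩ x).2.1
  have hδ2 : 0 < 2 * δ := by positivity
  set R := (2 ^ k * K' * K * e.m) ^ 2 * (exp (A + δ * L) ^ 2 * (2 / δ)) with hR
  obtain ⟨f1, f2⟩ := n2_le (F := D.Z.toPre)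
    (W := fun x => 2 ^ k * K' * K * e.m * exp (ψ x.2 - g * sg L p q x.2))
    (V := fun x => R * V4 (2 * δ) L p q x.2)
    (((integrable_V4 hδ2 L p q).comp_snd D.F.μ).const_mul R) (fun x => by
      rw [mul_pow, hR, mul_assoc (_ ^ 2)]
      exact mul_le_mul_of_nonneg_left (wt_le hδ hδ' e.L0.le (hψ x.2)) (sq_nonneg _))
    k (s2.smul s1) fun x => (PB.smul (s2 x) (s1 x) (h' ⟨_, d, hw⟩ x).2.2 (h e x)).mono
      (le_of_eq (by rw [sub_eq_add_neg, exp_add]; ring))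
  refine ⟨f1, nrm_le_of_sq (by positivity) (f2.trans (le_of_eq ?_))⟩
  rw [integral_const_mul, show ∫ x : Y × ℝ, V4 (2 * δ) L p q x.2 ∂D.Z.μ = _ from
    integral_fun_snd _, integral_V4 hδ2, hR, exp_add]
  simp only [mul_pow, smul_eq_mul]
  rw [sq_sqrt (by positivity)]
  show _ = _ * e.m ^ 2
  ring

end Crest.Agent.X212.Err63
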