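import Crest.Agent.X212.Dec35.Hyp
import Crest.Agent.X212.Rsp69.Loc
import Crest.Agent.X212.Eqv71.Cfg
import Crest.Agent.X212.Spn45.Aff

/-!
# Row 212, DEC-ERR (helper63): pointwise calculus for `rot`, the local part of the equations
-/

set_option autoImplicit false
set_option linter.unusedSectionVars false
noncomputable section
open scoped Manifold ContDiff Topology InnerProductSpace
open MeasureTheory Set Function Filter Real

namespace Crest.Agent.X212.Err63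
open An Map77 Sob92 Dec35 Rsp69
open Wz78 (SA dir)

variable {E : Type} [NormedAddCommGroup E] [NormedSpace ℝ E] [FiniteDimensional ℝ E]
  [MeasurableSpace E] [BorelSpace E]
  {HM : Type} [TopologicalSpace HM] {I : ModelWithCorners ℝ E HM} [I.Boundaryless]
  {M : Type} [TopologicalSpace M] [ChartedSpace HM M] [IsManifold I ∞ M] [MeasurableSpace M]
  [T2Space M] [BorelSpace M] [SecondCountableTopology M]
  {ι : Type} [Fintype ι] {lam : Type} [Fintype lam]
  {N : Type} [NormedAddCommGroup N] [NormedSpace ℝ N] {r n : ℕ}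

section pair
variable {κ : Type} [Fintype κ] {X Y : Type} [NormedAddCommGroup X] [NormedSpace ℝ X]
  [NormedAddCommGroup Y] [NormedSpace ℝ Y]

/-- inclusion of forms -/
abbrev jA : CL (Fm ι (HS κ)) (Cf ι κ) := i1 _ _
/-- inclusion of spinors -/
abbrev jP : CL (Eu κ) (Cf ι κ) := i2 _ _

theorem f2_pair (a : X) (b : Y) : f2 X Y (i1 X Y a + i2 X Y b) = a := by simp
theorem s2_pair (a : X) (b : Y) : s2 X Y (i1 X Y a + i2 X Y b) = b := by simp

end pair

/-! ### bounded functions of unbounded phases -/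

section fam
variable {𝒟 : Type*} {F : Pre I M ι} {l : Filter 𝒟} {S : 𝒟 → Set M} {w : 𝒟 → M → ℝ}
  {θ θ' : 𝒟 → M → ℝ}

/-- scalar families -/
abbrev Bs (F : Pre I M ι) (l : Filter 𝒟) (S : 𝒟 → Set M) (w : 𝒟 → M → ℝ) (k : ℕ)
    (f : 𝒟 → M → N) : Prop := Bk (N := fun _ => N) (fun _ => F) l S w k f

/-- phases with bounded derivatives -/
structure Ph (F : Pre I M ι) (l : Filter 𝒟) (S : 𝒟 → Set M) (k : ℕ) (θ : 𝒟 → M → ℝ) : Prop where
  sa : ∀ᶠ d in l, ∀ x ∈ S d, SA I (θ d) x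
  D : ∀ a, Bs F l S 1 k fun d => F.D a (θ d)

theorem Ph.of_le {j k : ℕ} (h : Ph F l S k θ) (hj : j ≤ k) : Ph F l S j θ :=
  ⟨h.sa, fun a => (h.D a).of_le hj⟩

theorem D_fun_ev {g : ℝ → ℝ} (hg : ContDiff ℝ ∞ g) {u : M → ℝ} {x : M} (hu : SA I u x) (a : ι) :
    (fun y => F.D a u y • deriv g (u y)) =ᶠ[𝓝 x] F.D a fun y => g (u y) :=
  (D_comp_ev (F := F) hg hu a).mono fun y hy => by rw [← hy]; exact (fderiv_eq_smul_deriv _).symm

theorem Ph.comp (k : ℕ) : ∀ {g : ℝ → ℝ}, Neck67.Sm g → Ph F l S k θ →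
    Bs F l S 1 k fun d x => g (θ d x) := by
  have h0 : ∀ {g : ℝ → ℝ}, Neck67.Sm g → (∀ᶠ d in l, ∀ x ∈ S d, SA I (θ d) x) →
      Bs F l S 1 0 fun d x => g (θ d x) := fun hg h =>
    let ⟨C, hC⟩ := hg.bd 0
    ⟨C, hC.nonneg, h.mono fun d h x hx => ⟨zero_le_one,
      hg.cd.contMDiff.contMDiffAt.comp x (h x hx), .zero' (by simpa using hC _)⟩⟩
  induction k with
  | zero => exact fun hg h => h0 hg h.sa
  | succ k ih =>
    intro g hg h
    exact (h0 hg h.sa).succ fun a => (((h.D a).of_le k.le_succ).smulR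
      (ih hg.deriv (h.of_le k.le_succ))).congr
        (h.sa.mono fun d hd x hx => D_fun_ev hg.cd (hd x hx) a)

theorem Ph.comp_sub (k : ℕ) : ∀ {g : ℝ → ℝ}, Neck67.Sm g → Ph F l S k θ → Ph F l S k θ' →
    (Bs F l S w k fun d x => θ d x - θ' d x) →
    Bs F l S w k fun d x => g (θ d x) - g (θ' d x) := by
  have h0 : ∀ {g : ℝ → ℝ}, Neck67.Sm g → (∀ᶠ d in l, ∀ x ∈ S d, SA I (θ d) x) →
      (∀ᶠ d in l, ∀ x ∈ S d, SA I (θ' d) x) → (Bs F l S w 0 fun d x => θ d x - θ' d x) →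
      Bs F l S w 0 fun d x => g (θ d x) - g (θ' d x) := by
    intro g hg h h' ⟨K, hK, h''⟩
    obtain ⟨C, hC⟩ := hg.deriv.bd 0
    refine ⟨C * K, mul_nonneg hC.nonneg hK, ((h.and h').and h'').mono fun d h x hx =>
      ⟨(h.2 x hx).1, (hg.cd.contMDiff.contMDiffAt.comp x (h.1.1 x hx)).sub
        (hg.cd.contMDiff.contMDiffAt.comp x (h.1.2 x hx)), .zero' ?_⟩⟩
    refine (convex_univ.norm_image_sub_le_of_norm_deriv_le (C := C) (fun y _ => hg.diff y)
      (fun y _ => hC y) trivial trivial).trans ?_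
    rw [mul_assoc]
    exact mul_le_mul_of_nonneg_left (h.2 x hx).2.2.bd hC.nonneg
  induction k with
  | zero => exact fun hg h h' e => h0 hg h.sa h'.sa e
  | succ k ih =>
    intro g hg h h' e
    refine (h0 hg h.sa h'.sa (e.of_le (Nat.zero_le _))).succ fun a =>
      (((e.D a).smulL (Ph.comp k hg.deriv (h.of_le k.le_succ))).add
        (((h'.D a).of_le k.le_succ).smulR (ih hg.deriv (h.of_le k.le_succ) (h'.of_le k.le_succ)
          (e.of_le k.le_succ)))).congr ?_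
    filter_upwards [h.sa, h'.sa] with d hd hd' x hx
    have s1 := hg.cd.contMDiff.contMDiffAt.comp x (hd x hx)
    have s2 := hg.cd.contMDiff.contMDiffAt.comp x (hd' x hx)
    filter_upwards [D_fun_ev (F := F) hg.cd (hd x hx) a, D_fun_ev (F := F) hg.cd (hd' x hx) a,
      (hd x hx).ev, (hd' x hx).ev, SA.ev s1, SA.ev s2] with y e1 e2 m1 m2 m3 m4
    have e3 : F.D a (fun y => θ d y - θ' d y) y = F.D a (θ d) y - F.D a (θ' d) y := dv_sub m1 m2
    have e4 : F.D a (fun y => g (θ d y) - g (θ' d y)) y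
        = F.D a (fun y => g (θ d y)) y - F.D a (fun y => g (θ' d y)) y := dv_sub m3 m4
    rw [e4, e3, ← e1, ← e2]
    simp only [smul_eq_mul]
    ring

theorem Ph.exp (k : ℕ) : Ph F l S k θ →
    Bs F l S (fun d x => exp (θ d x)) k fun d x => exp (θ d x) := by
  have h0 : (∀ᶠ d in l, ∀ x ∈ S d, SA I (θ d) x) →
      Bs F l S (fun d x => Real.exp (θ d x)) 0 fun d x => Real.exp (θ d x) := fun h =>
    ⟨1, zero_le_one, h.mono fun d h x hx => ⟨(exp_pos _).le,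
      contDiff_exp.contMDiff.contMDiffAt.comp x (h x hx), .zero' (by simp)⟩⟩
  induction k with
  | zero => exact fun h => h0 h.sa
  | succ k ih =>
    intro h
    refine (h0 h.sa).succ fun a => (((h.D a).of_le k.le_succ).smulR (ih (h.of_le k.le_succ))).congr
      (h.sa.mono fun d hd x hx => ?_)
    simpa only [Real.deriv_exp] using D_fun_ev (F := F) contDiff_exp (hd x hx) a

theorem bd_cs (k : ℕ) : Neck67.Bd k cos 1 ∧ Neck67.Bd k sin 1 := by
  induction k with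
  | zero => exact ⟨abs_cos_le_one, abs_sin_le_one⟩
  | succ k ih =>
    refine ⟨⟨abs_cos_le_one, ?_⟩, abs_sin_le_one, ?_⟩
    · rw [Real.deriv_cos']; exact ih.2.neg
    · rw [Real.deriv_sin]; exact ih.1

theorem sm_cos : Neck67.Sm cos := ⟨contDiff_cos, fun k => ⟨1, (bd_cs k).1⟩⟩
theorem sm_sin : Neck67.Sm sin := ⟨contDiff_sin, fun k => ⟨1, (bd_cs k).2⟩⟩

theorem Bs.clm {N' : Type} [NormedAddCommGroup N'] [NormedSpace ℝ N'] (L : N →L[ℝ] N') {k : ℕ}
    {f : 𝒟 → M → N} (h : Bs F l S w k f) : Bs F l S w k fun d x => L (f d x) :=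
  Bk.clm (L := fun _ => L) (Ub.const _) h

theorem cb_of_bs {f : M → N} (h : ∀ k, Bs F (⊤ : Filter Unit) (fun _ => univ) 1 k fun _ => f) :
    F.Cb f := by
  choose K _ hK using h
  simp only [eventually_top, forall_const, mem_univ, Pi.one_apply, mul_one] at hK
  exact ⟨K, fun x => (hK 0 x).2.1, fun k => CB_of_PB fun x => (hK k x).2.2⟩

variable {c : Cfg M ι lam r} {k : ℕ} {v v' : 𝒟 → M → Cv c}

theorem rot_eq (θ : M → ℝ) (v : M → Cv c) (x : M) : rot c θ v x = jA (fa (v x)) +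
    jP (cos (θ x) • (c.Φ x + fp (v x)) + sin (θ x) • c.m.J (c.Φ x + fp (v x)) - c.Φ x) := rfl

theorem bs_rot (hΦ : F.Cb c.Φ) (h : Ph F l S k θ) (hv : Bs F l S 1 k v) :
    Bs F l S 1 k fun d => rot c (θ d) (v d) := by
  have h1 : Bs F l S 1 k fun d x => c.Φ x + fp (v d x) := (Bk.of_Cb hΦ).add (hv.clm fp)
  have h2 : Bs F l S 1 k fun d x => cos (θ d x) • (c.Φ x + fp (v d x)) +
      sin (θ d x) • c.m.J (c.Φ x + fp (v d x)) - c.Φ x := (((h.comp k sm_cos).smulR h1).add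
    ((h.comp k sm_sin).smulR (h1.clm c.m.J))).sub (Bk.of_Cb hΦ)
  exact ((hv.clm fa).clm jA).add (h2.clm jP)

theorem bs_rot_sub (hΦ : F.Cb c.Φ) (h : Ph F l S k θ) (h' : Ph F l S k θ') (hv : Bs F l S 1 k v)
    (e : Bs F l S w k fun d x => θ d x - θ' d x) (e' : Bs F l S w k fun d x => v d x - v' d x) :
    Bs F l S w k fun d x => rot c (θ d) (v d) x - rot c (θ' d) (v' d) x := by
  have h1 : Bs F l S 1 k fun d x => c.Φ x + fp (v d x) := (Bk.of_Cb hΦ).add (hv.clm fp)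
  have h2 := e'.clm fp
  convert ((e'.clm fa).clm jA).add (Bs.clm jP
    (((((h.comp_sub k sm_cos h' e).smulL h1).add
      ((h.comp_sub k sm_sin h' e).smulL (h1.clm c.m.J))).add
      ((h'.comp k sm_cos).smulR h2)).add ((h'.comp k sm_sin).smulR (h2.clm c.m.J)))) using 3 with d x
  refine ext2 (by simp [rot_eq]) ?_
  simp only [rot_eq, map_add, map_sub, s2_i1, s2_i2]
  module

end fam

/-! ### the local part of the equations -/

/-- admissible bounded base configurations -/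
structure Cd (B : Base M ι lam) (G : Geo I M ι lam) (c : Cfg M ι lam r) : Prop where
  hB : B.OK I
  hG : G.OK B
  adm : c.Adm B G
  dat : Std94.Kl.Dat (Std94.cbK G.F.toPre) B c.m id
  cW : ∀ a, G.F.Cb (c.W a)
  cΦ : G.F.Cb c.Φ
  cc : ∀ a b k, G.F.Cb (G.F.c a b k)

variable {B : Base M ι lam} {G : Geo I M ι lam} {c : Cfg M ι lam r}

variable (B G c) in
/-- the unperturbed equations at `c + u` -/
def Lc (u : M → Cv c) (x : M) : Ev c :=
  sm2 (ContinuousLinearMap.id ℝ _) (c.m.p2 B x)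
    ((mbd B c.m).N G.F (fun y => base c.W c.Φ y + u y) x)

theorem f2_se (τ : Pt M ι lam r n) (u : M → Cv c) (x : M) :
    f2 _ _ (se B G τ c u x) = (cf c u).eD G τ x := f2_pair _ _

theorem s2_se (τ : Pt M ι lam r n) (u : M → Cv c) (x : M) :
    s2 _ _ (se B G τ c u x) = (cf c u).eC B G τ x := s2_pair _ _

theorem f2_te (τ : Pt M ι lam r n) (u : M → Cv c) (x : M) :
    f2 _ _ (te τ c u x) = τ.D (cf c u) x := f2_pair _ _

theorem s2_te (τ : Pt M ι lam r n) (u : M → Cv c) (x : M) :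
    s2 _ _ (te τ c u x) = τ.C (cf c u) x := s2_pair _ _

theorem se_eq' (hG : G.OK B) (h : Sm I (base c.W c.Φ)) (τ : Pt M ι lam r n) {u : M → Cv c}
    (hu : Sm I u) (x : M) : se B G τ c u x = Lc B G c u x - te τ c u x := by
  have s0 : Sm I fun y => base c.W c.Φ y + u y := h.add hu
  have e1 := Bd.f2_N (d := mbd B c.m) (F := G.F) _ s0 x
  have e2 := Bd.s2_N (d := mbd B c.m) (F := G.F) hG.P _ s0 x
  simp only [map_add, oa_base, fp_base] at e1 e2
  refine ext2 ?_ ?_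
  · rw [f2_se, map_sub, Lc, f2_sm2, ContinuousLinearMap.id_apply, e1, f2_te]
    rfl
  · rw [s2_se, map_sub, Lc, s2_sm2, s2_te]
    refine congrArg (· - τ.C (cf c u) x) ?_
    change c.m.p2 B x (c.m.Fg _ (c.m.addC c.W fun y => fa (u y)) x) -
      c.m.mu B x (c.Φ x + fp (u x)) (c.Φ x + fp (u x)) = _
    refine fm_ext fun s => ?_
    simp only [Md.p2, Md.mu, Md.Fg, Md.q, e2, PiLp.sub_apply, idx_apply, Std94.pg_pg, map_sub,
      smul_sub, Finset.sum_sub_distrib, map_add]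
    rfl

namespace Cd
variable (h : Cd B G c)
include h

theorem inK : (mbd B c.m).In (F := fun _ : Unit => G.F.toPre) (cb _ univ) :=
  have H := fun t => Std94.pmx h.adm.ok (id t)
  ⟨fun a b _ _ => h.dat.P a b, fun a _ _ => h.dat.ρ a, fun _ _ => h.dat.pg h.hB H,
    fun _ _ => h.dat.p1 h.hB H, fun _ _ => h.dat.p2 h.hB H, fun _ _ => h.dat.pp,
    fun _ _ => h.dat.pm⟩

theorem cσ (a : ι) : G.F.Cb ((mbd B c.m).σ a) :=
  Bd.In.σ (F := fun _ : Unit => G.F) h.inK a () trivial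

theorem cβ : G.F.Cb (mbd B c.m).β := Bd.In.β (F := fun _ : Unit => G.F) h.inK () trivial

theorem cB : G.F.Cb (Bc G.F : M → CL (Cv c) (Ev c)) :=
  Bd.In.Bc (F := fun _ : Unit => G.F) (K := cb _ univ) (fun a b k _ _ => h.cc a b k) () trivial

theorem c0 : G.F.Cb (base c.W c.Φ) :=
  Cls.base (F := fun _ : Unit => G.F.toPre) (K := cb _ univ) (W := fun _ => c.W)
    (Φ := fun _ => c.Φ) (fun a _ _ => h.cW a) (fun _ _ => h.cΦ) () trivial

theorem cQ : G.F.Cb fun x => (sm2 (ContinuousLinearMap.id ℝ _) (c.m.p2 B x) : CL (Ev c) (Ev c)) :=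
  Cls.ps (F := fun _ : Unit => G.F.toPre) (K := cb _ univ)
    (p := fun _ _ => ContinuousLinearMap.id ℝ _) (q := fun _ => c.m.p2 B)
    (fun _ _ => Cb_const _) h.inK.p2 () trivial

variable {𝒟 : Type*} {l : Filter 𝒟} {S : 𝒟 → Set M} {w : 𝒟 → M → ℝ} {k : ℕ} {u v : 𝒟 → M → Cv c}

theorem bs_Lc (hu : Bs G.F.toPre l S 1 (k + 1) u) :
    Bs G.F.toPre l S 1 k fun d => Lc B G c (u d) := by
  have h1 : Bs G.F.toPre l S 1 (k + 1) fun d y => base c.W c.Φ y + u d y := (Bk.of_Cb h.c0).add hu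
  have h2 := h1.of_le k.le_succ
  exact (Bk.of_Cb h.cQ).appR (((Bk.sum _ Bk.nn1 fun a _ => (Bk.of_Cb (h.cσ a)).appR (h1.D a)).add
    ((Bk.of_Cb h.cB).appR h2)).add (((Bk.of_Cb h.cβ).appR h2).appR h2))

theorem bs_Lc_sub (hu : Bs G.F.toPre l S 1 (k + 1) u) (hv : Bs G.F.toPre l S 1 (k + 1) v)
    (e : Bs G.F.toPre l S w (k + 1) fun d x => u d x - v d x) :
    Bs G.F.toPre l S w k fun d x => Lc B G c (u d) x - Lc B G c (v d) x := by
  have h1 : Bs G.F.toPre l S 1 (k + 1) fun d y => base c.W c.Φ y + u d y := (Bk.of_Cb h.c0).add hu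
  have h2 : Bs G.F.toPre l S 1 (k + 1) fun d y => base c.W c.Φ y + v d y := (Bk.of_Cb h.c0).add hv
  have e' := e.of_le k.le_succ
  refine ((Bk.of_Cb h.cQ).appR ((((Bk.sum Finset.univ e.nn fun a _ =>
    (Bk.of_Cb (h.cσ a)).appR (e.D a)).add ((Bk.of_Cb h.cB).appR e')).add
      (((Bk.of_Cb h.cβ).appR e').appL (h1.of_le k.le_succ))).add
      (((Bk.of_Cb h.cβ).appR (h2.of_le k.le_succ)).appR e'))).congr ?_
  filter_upwards [h1.sa, h2.sa] with d s1 s2 x hx
  filter_upwards [(s1 x hx).ev, (s2 x hx).ev] with y m1 m2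
  have e1 : ∀ a, G.F.D a (fun x => u d x - v d x) y =
      G.F.D a (fun y => base c.W c.Φ y + u d y) y - G.F.D a (fun y => base c.W c.Φ y + v d y) y :=
    fun a => by
      refine Eq.trans ?_ (dv_sub m1 m2)
      exact congrArg (fun f => G.F.D a f y) (funext fun z => (add_sub_add_left_eq_sub _ _ _).symm)
  rw [Lc, Lc, ← map_sub]
  congr 1
  simp only [Bd.N, Nq, Pre.op, e1, map_sub, map_add, Finset.sum_sub_distrib, sub_apply, add_apply]
  abel

theorem se_eq (τ : Pt M ι lam r n) {u : M → Cv c} (hu : Sm I u) (x : M) :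
    se B G τ c u x = Lc B G c u x - te τ c u x := se_eq' h.hG (Cb.sm h.c0) τ hu x

theorem sm_Lc {u : M → Cv c} (hu : G.F.Cb u) : Sm I (Lc B G c u) :=
  Cb.sm (cb_of_bs fun _ => h.bs_Lc (Bk.of_Cb hu))

end Cd

/-! ### admissibility and phases -/

theorem Tg.fa {u : M → Cv c} (h : Tg B c u) (x : M) : c.m.p1 B x (fa (u x)) = fa (u x) :=
  (f2_ps x (u x)).symm.trans (congrArg _ (h x))

theorem Tg.fp {u : M → Cv c} (h : Tg B c u) (x : M) : c.m.pp B x (fp (u x)) = fp (u x) :=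
  (s2_ps x (u x)).symm.trans (congrArg _ (h x))

theorem adm_cf (h : c.Adm B G) {u : M → Cv c} (hu : Sm I u) (ht : Tg B c u) : (cf c u).Adm B G :=
  ⟨h.ok, Spn45.isConn_addC h.ok h.conn (fa.contMDiff.comp hu) (Tg.fa ht),
    h.sm.add (fp.contMDiff.comp hu), fun x => by
      show c.m.pp B x (c.Φ x + fp (u x)) = c.Φ x + fp (u x)
      rw [map_add, h.pos, Tg.fp ht], h.z⟩

theorem tg_rot (h : c.Adm B G) {v : M → Cv c} (ht : Tg B c v) (θ : M → ℝ) :
    Tg B c (rot c θ v) := fun x => by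
  have e : ∀ a, c.m.pp B x (c.m.J a) = c.m.J (c.m.pp B x a) := fun a =>
    (congrArg (fun T : En _ => T a) (Wz78.J_pp h.ok x)).symm
  refine ext2 ((f2_ps x _).trans ?_) ((s2_ps x _).trans ?_)
  · rw [rot_eq, f2_pair]; exact Tg.fa ht x
  · rw [rot_eq, s2_pair]
    show c.m.pp B x _ = _
    simp only [map_add, map_sub, map_smul, e, h.pos, Tg.fp ht x]

theorem rot_zero (c : Cfg M ι lam r) : rot c (fun _ => 0) 0 = 0 := funext fun x => by
  simp [rot_eq]

theorem cf_zero_z {c : Cfg M ι lam 0} (u v : M → Cv c) (ζ : ℂ) : (cf c v).z = ζ • (cf c u).z :=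
  Subsingleton.elim _ _

/-- the phase acting on the values of the equations -/
def phE (c : Cfg M ι lam r) (θ : ℝ) : CL (Ev c) (Ev c) := sm2 (ph c θ) (ContinuousLinearMap.id ℝ _)

theorem ph_eq (θ : ℝ) (a : c.m.V) : ph c θ a = cs c.m.J (Circle.exp θ) a := by
  simp [ph, cs, Complex.exp_ofReal_mul_I_re, Complex.exp_ofReal_mul_I_im]

theorem ph_add (h : c.m.OK I B) (s t : ℝ) (a : c.m.V) : ph c (s + t) a = ph c t (ph c s a) := by
  rw [ph_eq, ph_eq, ph_eq, Eqv71.cs_mul h.Jsq, add_comm, Circle.exp_add, Circle.coe_mul]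

theorem ub_phE (c : Cfg M ι lam r) : ∃ K ≥ 0, ∀ θ, ‖phE c θ‖ ≤ K := by
  have e : ∀ θ, phE c θ = cos θ • sm2 1 0 + sin θ • sm2 c.m.J 0 +
      sm2 0 (ContinuousLinearMap.id ℝ _) := fun θ =>
    ContinuousLinearMap.ext fun a => ext2 (by simp [phE, ph]) (by simp [phE])
  refine ⟨‖(sm2 1 0 : CL (Ev c) (Ev c))‖ + ‖(sm2 c.m.J 0 : CL (Ev c) (Ev c))‖ +
    ‖(sm2 0 (ContinuousLinearMap.id ℝ _) : CL (Ev c) (Ev c))‖, by positivity, fun θ => ?_⟩
  rw [e]
  refine norm_add_le_of_le (norm_add_le_of_le ?_ ?_) le_rfl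
  · rw [norm_smul]; exact mul_le_of_le_one_left (norm_nonneg _) (abs_cos_le_one θ)
  · rw [norm_smul]; exact mul_le_of_le_one_left (norm_nonneg _) (abs_sin_le_one θ)

/-- a constant phase acts on the equations -/
theorem se_phase {c : Cfg M ι lam 0} {τ : Pt M ι lam 0 n} (hB : B.OK I) (hG : G.OK B)
    (h : c.Adm B G)
    (nat : ∀ (c c' : Cfg M ι lam 0) (u : M → CL c.m.V c'.m.V) (ζ : Circle), c.Adm B G →
      c'.Adm B G → CEq G.F c c' univ id (fun x b a => B.P b a x) B.l u ζ →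
      ∀ x, τ.D c' x = cs c'.m.J ζ (u x (τ.D c x)) ∧ ∀ s, τ.C c' x s = Eqv71.cj (u x) (τ.C c x s))
    {θ : M → ℝ} {v : M → Cv c} (ht : Tg B c v) (s : ℝ) (h1 : Sm I (rot c θ v))
    (h2 : Sm I (rot c (fun x => θ x + s) v)) (x : M) :
    se B G τ c (rot c (fun x => θ x + s) v) x = phE c s (se B G τ c (rot c θ v) x) := by
  have a1 := adm_cf h h1 (tg_rot h ht θ)
  have a2 := adm_cf h h2 (tg_rot h ht _)
  have g := Eqv71.lg_refl hB hG isOpen_univ
  have e1 := Eqv71.ceq_refl hB hG (Eqv71.ad0 a1) isOpen_univ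
  have hW : (cf c (rot c (fun x => θ x + s) v)).W = (cf c (rot c θ v)).W := by
    funext a y; simp [cf, Nd18.vr, Md.addC, rot]
  have e2 : CEq G.F (cf c (rot c θ v)) (cf c (rot c (fun x => θ x + s) v)) univ id
      (fun x b a => B.P b a x) B.l c.m.p (Circle.exp s) := by
    refine ⟨e1.m, hW ▸ e1.W, fun y _ => ?_, cf_zero_z _ _ _⟩
    refine Eq.trans ?_ ((ph_eq (c := c) s _).trans
      (congrArg _ (Eqv71.p_Φ (Eqv71.ad0 a1) y).symm))
    show c.Φ y + fp (rot c _ v y) = ph c s (c.Φ y + fp (rot c θ v y))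
    simp [rot, ph_add h.ok]
  have d1 := Eqv71.ceq_eD g a1 a1 e1 (mem_univ x) (nat _ _ _ _ a1 a1 e1 x).1
  have d2 := Eqv71.ceq_eD g a1 a2 e2 (mem_univ x) (nat _ _ _ _ a1 a2 e2 x).1
  have c1 : τ.C (cf c (rot c (fun x => θ x + s) v)) x = τ.C (cf c (rot c θ v)) x :=
    fm_ext fun t => ((nat _ _ _ _ a1 a2 e2 x).2 t).trans ((nat _ _ _ _ a1 a1 e1 x).2 t).symm
  have c2 := (Eqv71.ceq_p2F g a1 a2 e2 (mem_univ x)).trans
    (Eqv71.ceq_p2F g a1 a1 e1 (mem_univ x)).symm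
  have c3 := (Eqv71.ceq_mu g a1 a2 e2 (mem_univ x)).trans
    (Eqv71.ceq_mu g a1 a1 e1 (mem_univ x)).symm
  rw [Circle.coe_one, Eqv71.cs_one] at d1
  refine ext2 ?_ ?_
  · rw [phE, f2_sm2, ph_eq, f2_se, f2_se]
    exact d2.trans (congrArg _ d1.symm)
  · rw [phE, s2_sm2, ContinuousLinearMap.id_apply, s2_se, s2_se]
    exact congrArg₂ (· - ·) (congrArg₂ (· - ·) c2 c3) c1

/-! ### from pointwise bounds to Sobolev norms -/

/-- the number of words of length `≤ k` -/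
def cN (ι : Type) [Fintype ι] : ℕ → ℝ
  | 0 => 1
  | k + 1 => 1 + Fintype.card ι * cN ι k

theorem cN_nonneg : ∀ k, 0 ≤ cN ι k
  | 0 => zero_le_one
  | k + 1 => by have := cN_nonneg k; unfold cN; positivity

theorem n2_le {F : Pre I M ι} {W V : M → ℝ} (hV : Integrable V F.μ) (hW : ∀ x, W x ^ 2 ≤ V x)
    (k : ℕ) : ∀ {f : M → N}, Sm I f → (∀ x, PB F k f x (W x)) →
      FL F k f ∧ N2 F k f ≤ cN ι k * ∫ x, V x ∂F.μ := by
  have h0 : ∀ {f : M → N}, Sm I f → (∀ x, ‖f x‖ ≤ W x) →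
      MemLp f 2 F.μ ∧ ∫ x, ‖f x‖ ^ 2 ∂F.μ ≤ ∫ x, V x ∂F.μ := fun {f} hf h => by
    have e : ∀ x, ‖f x‖ ^ 2 ≤ V x := fun x =>
      (pow_le_pow_left₀ (norm_nonneg _) (h x) 2).trans (hW x)
    have m := hf.continuous.aestronglyMeasurable (μ := F.μ)
    exact ⟨(memLp_two_iff_integrable_sq_norm m).2 (hV.mono' (m.norm.pow 2)
      (.of_forall fun x => by rw [Real.norm_of_nonneg (by positivity)]; exact e x)),
      integral_mono_of_nonneg (.of_forall fun x => by positivity) hV (.of_forall e)⟩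
  induction k with
  | zero => exact fun hf h => by rw [cN, one_mul]; exact h0 hf fun x => (h x).bd
  | succ k ih =>
    intro f hf h
    have h1 := h0 hf fun x => (h x).bd
    have h2 := fun a => ih (F.sm_D hf a) fun x => (h x).D a
    refine ⟨⟨h1.1, fun a => (h2 a).1⟩, (add_le_add h1.2 (Finset.sum_le_sum fun a _ =>
      (h2 a).2)).trans (le_of_eq ?_)⟩
    simp only [cN, Finset.sum_const, Finset.card_univ, nsmul_eq_mul]
    ring

end Crest.Agent.X212.Err63
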